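import Vale.Agent.P281.H167.LC.Iface
import Vale.Agent.P272.K.AMP.Calc

/-! P281, log canonical pairs, row LC4: the mass of `i∂∂̄ log (1 + S₁/S₀)`. -/

open scoped Manifold ContDiff Topology ComplexOrder
open Set Filter Vale.Agent.P272.K Vale.Agent.P272.K.AMP Vale.Agent.P299
open Vale.Agent.P299.H882 (J J_add J_sub J_const_mul J_mono J_nonneg J_congr J_lap cont_lap
  cont_grad)
open Vale.Agent.P272.K.INT (IsClosedForm)

set_option linter.all false

noncomputable section

namespace Vale.Agent.P281.H575.LC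

open Vale.Agent.P281.H713.KD (BochF)

section point

variable {n : ℕ} {X : Type} [TopologicalSpace X] [ChartedSpace (Cm n) X]
  {g : D.FormM n X} {S S₀ S₁ v τ : X → ℝ}

/-- at a zero of a nonnegative function -/
lemma zero_pt (hg : ∀ e x, At e x → (g e (e x)).PosDef) (hS : SmoothFn (n := n) S)
    (h0 : ∀ x, 0 ≤ S x) {x : X} (hx : S x = 0) :
    0 ≤ lapX g S x ∧ ∀ w, gradX g S w x = 0 := by
  have hmax : IsLocalMax (fun y => -S y) x := by
    refine Eventually.of_forall fun y => ?_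
    show -S y ≤ -S x
    have := h0 y
    rw [hx]
    linarith
  refine ⟨?_, fun w => ?_⟩
  · have h1 := lapX_nonpos_of_max hg (sm_neg hS) hmax
    rw [lapX_neg hS] at h1
    linarith
  · have h1 := gradX_zero_of_max (g := g) hmax w
    rw [gradX_neg_left hS] at h1
    linarith

/-- Cauchy-Schwarz -/
lemma bochF_add (hg : ∀ e x, At e x → (g e (e x)).PosDef) (hS₀ : SmoothFn (n := n) S₀)
    (hS₁ : SmoothFn (n := n) S₁) (h₀ : ∀ x, 0 ≤ S₀ x) (h₁ : ∀ x, 0 ≤ S₁ x)
    (hτ0 : ∀ x, 0 ≤ τ x) (hB₀ : BochF g τ S₀) (hB₁ : BochF g τ S₁) :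
    BochF g τ (fun x => S₀ x + S₁ x) := by
  intro x
  rw [lapX_add' hS₀ hS₁, gradX_add_left hS₀ hS₁, gradX_add_right hS₀ hS₁,
    gradX_add_right hS₀ hS₁, gradX_comm hg S₁ S₀]
  show gradX g S₀ S₀ x + gradX g S₀ S₁ x + (gradX g S₀ S₁ x + gradX g S₁ S₁ x) ≤
    (S₀ x + S₁ x) * (lapX g S₀ x + lapX g S₁ x) + τ x * (S₀ x + S₁ x) ^ 2
  have e0 := hB₀ x
  have e1 := hB₁ x
  have hb := gradX_sq_le hg hS₀ hS₁ x
  have ha0 := gradX_self_nonneg hg S₀ x
  have ha1 := gradX_self_nonneg hg S₁ x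
  rcases (h₀ x).eq_or_lt with hz | hp0
  · obtain ⟨hl, hgr⟩ := zero_pt hg hS₀ h₀ hz.symm
    rw [hgr S₀, hgr S₁, ← hz]
    have := mul_nonneg (h₁ x) hl
    nlinarith
  rcases (h₁ x).eq_or_lt with hz | hp1
  · obtain ⟨hl, hgr⟩ := zero_pt hg hS₁ h₁ hz.symm
    have h2 : gradX g S₀ S₁ x = 0 := by rw [gradX_comm hg, hgr]
    rw [hgr S₁, h2, ← hz]
    have := mul_nonneg (h₀ x) hl
    nlinarith
  set s0 := S₀ x
  set s1 := S₁ x
  set a0 := gradX g S₀ S₀ x
  set a1 := gradX g S₁ S₁ x
  set b := gradX g S₀ S₁ x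
  set L0 := lapX g S₀ x
  set L1 := lapX g S₁ x
  set t := τ x
  -- `2 b s0 s1 ≤ a0 s1² + a1 s0²`
  have key : 2 * b * (s0 * s1) ≤ a0 * s1 ^ 2 + a1 * s0 ^ 2 := by
    have h1 : (2 * b * (s0 * s1)) ^ 2 ≤ (a0 * s1 ^ 2 + a1 * s0 ^ 2) ^ 2 := by
      have h2 : (s0 * s1) ^ 2 * b ^ 2 ≤ (s0 * s1) ^ 2 * (a0 * a1) :=
        mul_le_mul_of_nonneg_left hb (sq_nonneg _)
      nlinarith [sq_nonneg (a0 * s1 ^ 2 - a1 * s0 ^ 2)]
    have h3 : 0 ≤ a0 * s1 ^ 2 + a1 * s0 ^ 2 := by positivity
    exact (abs_le_of_sq_le_sq' h1 h3).2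
  -- multiply by `s0 s1`
  have hp : 0 < s0 * s1 := mul_pos hp0 hp1
  have hmul : (s0 * s1) * (a0 + b + (b + a1)) ≤
      (s0 * s1) * ((s0 + s1) * (L0 + L1) + t * (s0 + s1) ^ 2) := by
    have f0 : s1 * (s0 + s1) * a0 ≤ s1 * (s0 + s1) * (s0 * L0 + t * s0 ^ 2) :=
      mul_le_mul_of_nonneg_left e0 (by positivity)
    have f1 : s0 * (s0 + s1) * a1 ≤ s0 * (s0 + s1) * (s1 * L1 + t * s1 ^ 2) :=
      mul_le_mul_of_nonneg_left e1 (by positivity)
    nlinarith
  exact le_of_mul_le_mul_left hmul hp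

/-- the Laplacian of the logarithm, computed near a point -/
lemma lap_log_pt {u : X → ℝ} (hu : SmoothFn (n := n) u) {x : X} (hx : 0 < u x) :
    ((g (chartAt (Cm n) x) (chartAt (Cm n) x x))⁻¹ *
      cHess (fun y => Real.log (u ((chartAt (Cm n) x).symm y))) (chartAt (Cm n) x x)).trace.re =
      lapX g u x / u x - gradX g u u x / u x ^ 2 := by
  have hat := at_chartAt (n := n) x
  have h1 := cHess_comp_real (n := n) (z := chartAt (Cm n) x x)
    (f := fun y => u ((chartAt (Cm n) x).symm y)) (φ := Real.log)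
    (by
      show ContDiffAt ℝ 2 Real.log (u ((chartAt (Cm n) x).symm (chartAt (Cm n) x x)))
      rw [hat.left_inv]
      exact Real.contDiffAt_log.2 hx.ne') (sm_two hu hat)
  have h2 : deriv (deriv Real.log) (u x) = -(u x ^ 2)⁻¹ := by
    rw [Real.deriv_log']
    exact deriv_inv
  have h3 : u ((chartAt (Cm n) x).symm (chartAt (Cm n) x x)) = u x := by rw [hat.left_inv]
  rw [h1]
  simp only [h3]
  rw [h2, Real.deriv_log, tr_add, tr_smul, tr_smul, ← dd_eq_gm]
  have h4 : ((g (chartAt (Cm n) x) (chartAt (Cm n) x x))⁻¹ *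
      dd u u (chartAt (Cm n) x) (chartAt (Cm n) x x)).trace.re = gradX g u u x := rfl
  have h5 : ((g (chartAt (Cm n) x) (chartAt (Cm n) x x))⁻¹ *
      cHess (fun y => u ((chartAt (Cm n) x).symm y)) (chartAt (Cm n) x x)).trace.re =
      lapX g u x := rfl
  rw [h4, h5]
  field_simp
  ring

/-- `Δ log (1 + S₁/S₀)` -/
lemma lap_v (hS₀ : SmoothFn (n := n) S₀) (hS₁ : SmoothFn (n := n) S₁) (h₁ : ∀ x, 0 ≤ S₁ x)
    (hv : ∀ x, 0 < S₀ x → v x = Real.log (1 + S₁ x / S₀ x)) {x : X} (hx : 0 < S₀ x) :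
    lapX g v x = (lapX g (fun x => S₀ x + S₁ x) x / (S₀ x + S₁ x) -
      gradX g (fun x => S₀ x + S₁ x) (fun x => S₀ x + S₁ x) x / (S₀ x + S₁ x) ^ 2) -
      (lapX g S₀ x / S₀ x - gradX g S₀ S₀ x / S₀ x ^ 2) := by
  have hat := at_chartAt (n := n) x
  have hH : SmoothFn (n := n) (fun x => S₀ x + S₁ x) := sm_add hS₀ hS₁
  have hHx : 0 < S₀ x + S₁ x := add_pos_of_pos_of_nonneg hx (h₁ x)
  rw [← lap_log_pt (g := g) hS₀ hx, ← lap_log_pt (g := g) hH hHx, ← tr_sub, lapX_def']
  congr 3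
  have hlog : ∀ {u : X → ℝ}, SmoothFn (n := n) u → 0 < u x →
      ContDiffAt ℝ 2 (fun y => Real.log (u ((chartAt (Cm n) x).symm y))) (chartAt (Cm n) x x) := by
    intro u hu hux
    refine (sm_two hu hat).log ?_
    show u ((chartAt (Cm n) x).symm (chartAt (Cm n) x x)) ≠ 0
    rw [hat.left_inv]
    exact hux.ne'
  rw [← cHess_sub (hlog hH hHx) (hlog hS₀ hx)]
  refine C2.cHess_congr ?_
  have hcont : ContinuousAt (fun y => S₀ ((chartAt (Cm n) x).symm y)) (chartAt (Cm n) x x) :=
    (sm_two hS₀ hat).continuousAt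
  have hev : ∀ᶠ y in 𝓝 (chartAt (Cm n) x x), 0 < S₀ ((chartAt (Cm n) x).symm y) := by
    refine hcont.eventually (lt_mem_nhds ?_)
    show 0 < S₀ ((chartAt (Cm n) x).symm (chartAt (Cm n) x x))
    rw [hat.left_inv]
    exact hx
  filter_upwards [hev] with y hy
  show v _ = _
  rw [hv _ hy, ← Real.log_div (add_pos_of_pos_of_nonneg hy (h₁ _)).ne' hy.ne', add_div,
    div_self hy.ne']

end point

/-- **Row LC4** -/
theorem massLe : H167.LC.MassLe := by
  intro n X _ _ _ _ _ _ g hg S₀ S₁ τ v hS₀ hS₁ h₀ h₁ hτ hτ0 hB₀ hB₁ hv hpsd ψ hψ hψ1 hsupp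
  have hgH := hg.toIsHermitian
  have hgP := hgH.posDef
  set H : X → ℝ := fun x => S₀ x + S₁ x with hHd
  have hH : SmoothFn (n := n) H := sm_add hS₀ hS₁
  have hH0 : ∀ x, 0 ≤ H x := fun x => add_nonneg (h₀ x) (h₁ x)
  have hBH : BochF g τ H := bochF_add hgP hS₀ hS₁ h₀ h₁ hτ0 hB₀ hB₁
  have cH : Continuous H := sm_continuous hH
  have cS : Continuous S₀ := sm_continuous hS₀
  have cψ : Continuous ψ := sm_continuous hψ
  have hlv : ∀ x, 0 < S₀ x → 0 ≤ lapX g v x := by
    intro x hx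
    have hat := at_chartAt (n := n) x
    rw [lapX_def']
    exact (Complex.le_def.1 (C2.trace_mul_nonneg (hgP _ x hat).inv.posSemidef
      (hpsd _ x hat hx))).1
  set P : X → ℝ := fun x => ψ x * lapX g v x with hPd
  have hψ0 : ∀ x, ¬ 0 < S₀ x → ψ x = 0 := by
    intro x hx
    by_contra hne
    exact hx (hsupp x (subset_tsupport ψ hne))
  have hP0 : ∀ x, 0 ≤ P x := by
    intro x
    by_cases hx : 0 < S₀ x
    · exact mul_nonneg (hψ1 x).1 (hlv x hx)
    · rw [hPd]
      show 0 ≤ ψ x * _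
      rw [hψ0 x hx, zero_mul]
  -- continuity
  have cP : Continuous P := by
    rw [continuous_iff_continuousAt]
    intro x
    by_cases hx : 0 < S₀ x
    · have h1 : P =ᶠ[𝓝 x] fun x => ψ x * ((lapX g H x / H x - gradX g H H x / H x ^ 2) -
          (lapX g S₀ x / S₀ x - gradX g S₀ S₀ x / S₀ x ^ 2)) := by
        filter_upwards [(isOpen_lt continuous_const cS).mem_nhds hx] with y hy
        show ψ y * lapX g v y = _
        rw [lap_v hS₀ hS₁ h₁ hv hy]
      refine ContinuousAt.congr ?_ h1.symm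
      have hHx : H x ≠ 0 := (add_pos_of_pos_of_nonneg hx (h₁ x)).ne'
      have k1 := (cont_lap hgH hH).continuousAt (x := x)
      have k2 := (cont_grad hgH hH hH).continuousAt (x := x)
      have k3 := (cont_lap hgH hS₀).continuousAt (x := x)
      have k4 := (cont_grad hgH hS₀ hS₀).continuousAt (x := x)
      exact cψ.continuousAt.mul (((k1.div cH.continuousAt hHx).sub
        (k2.div (cH.continuousAt.pow 2) (pow_ne_zero 2 hHx))).sub
        ((k3.div cS.continuousAt hx.ne').sub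
        (k4.div (cS.continuousAt.pow 2) (pow_ne_zero 2 hx.ne'))))
    · have h1 : x ∉ tsupport ψ := fun h => hx (hsupp x h)
      have h2 : P =ᶠ[𝓝 x] fun _ => 0 := by
        filter_upwards [(isClosed_tsupport ψ).isOpen_compl.mem_nhds h1] with y hy
        show ψ y * _ = 0
        rw [image_eq_zero_of_notMem_tsupport hy, zero_mul]
      exact ContinuousAt.congr continuousAt_const h2.symm
  -- the pointwise inequality
  have key : ∀ d : ℝ, 0 < d → ∀ x, H x / (H x + d) * P x - τ x ≤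
      lapX g (fun x => Real.log (H x + d)) x := by
    intro d hd x
    have hHd0 : 0 < H x + d := add_pos_of_nonneg_of_pos (hH0 x) hd
    have hu : SmoothFn (n := n) (fun x => H x + d) := sm_add hH (smoothFn_const d)
    have h1 := lap_log_pt (g := g) hu hHd0
    have h2 : lapX g (fun x => Real.log (H x + d)) x =
        lapX g (fun x => H x + d) x / (H x + d) -
          gradX g (fun x => H x + d) (fun x => H x + d) x / (H x + d) ^ 2 := h1
    rw [h2, lapX_add' hH (smoothFn_const d), lapX_const', add_zero,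
      gradX_add_left hH (smoothFn_const d), gradX_const_left, add_zero,
      gradX_add_right hH (smoothFn_const d), gradX_const_right, add_zero]
    have hG := gradX_self_nonneg hgP H x
    have hB := hBH x
    have ht := hτ0 x
    have hPx : P x = ψ x * lapX g v x := rfl
    rcases (hH0 x).eq_or_lt with hz | hp
    · obtain ⟨hl, hgr⟩ := zero_pt hgP hH hH0 hz.symm
      rw [← hz, zero_div, zero_mul, zero_sub, hgr H, zero_div, sub_zero]
      exact (neg_nonpos.2 ht).trans (div_nonneg hl (by rw [zero_add]; exact hd.le))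
    -- `Λ ≥ P - τ`
    have hΛ : P x - τ x ≤ lapX g H x / H x - gradX g H H x / H x ^ 2 := by
      by_cases hx : 0 < S₀ x
      · have h3 := lap_v (g := g) hS₀ hS₁ h₁ hv hx
        have h4 : lapX g v x = (lapX g H x / H x - gradX g H H x / H x ^ 2) -
          (lapX g S₀ x / S₀ x - gradX g S₀ S₀ x / S₀ x ^ 2) := h3
        have h5 : -τ x ≤ lapX g S₀ x / S₀ x - gradX g S₀ S₀ x / S₀ x ^ 2 := by
          have h6 := hB₀ x
          rw [div_sub_div _ _ hx.ne' (pow_ne_zero 2 hx.ne'), le_div_iff₀ (by positivity)]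
          nlinarith
        have h7 : P x ≤ lapX g v x := by
          rw [hPx]
          calc ψ x * lapX g v x ≤ 1 * lapX g v x :=
                mul_le_mul_of_nonneg_right (hψ1 x).2 (hlv x hx)
            _ = lapX g v x := one_mul _
        linarith
      · have h3 : P x = 0 := by rw [hPx, hψ0 x hx, zero_mul]
        rw [h3, zero_sub, div_sub_div _ _ hp.ne' (pow_ne_zero 2 hp.ne'),
          le_div_iff₀ (by positivity)]
        nlinarith
    have h8 : H x * (lapX g H x / H x - gradX g H H x / H x ^ 2) =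
        lapX g H x - gradX g H H x / H x := by
      field_simp
    have h9 : H x * (P x - τ x) ≤ lapX g H x - gradX g H H x / H x := by
      rw [← h8]
      exact mul_le_mul_of_nonneg_left hΛ hp.le
    have h10 : gradX g H H x / (H x + d) ≤ gradX g H H x / H x :=
      div_le_div_of_nonneg_left hG hp (by linarith)
    have h11 : H x * (P x - τ x) ≤ lapX g H x - gradX g H H x / (H x + d) := by linarith
    have h12 : (lapX g H x - gradX g H H x / (H x + d)) / (H x + d) =
        lapX g H x / (H x + d) - gradX g H H x / (H x + d) ^ 2 := by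
      rw [sub_div, div_div, sq]
    rw [← h12, le_div_iff₀ hHd0]
    have h13 : (H x / (H x + d) * P x - τ x) * (H x + d) = H x * P x - τ x * (H x + d) := by
      field_simp
    rw [h13]
    have h14 : 0 ≤ τ x * d := mul_nonneg ht hd.le
    nlinarith
  -- the lower bound on the support
  obtain ⟨c, hc, hcS⟩ : ∃ c : ℝ, 0 < c ∧ ∀ x ∈ tsupport ψ, c ≤ S₀ x :=
    ((isClosed_tsupport ψ).isCompact).exists_forall_le' cS.continuousOn hsupp
  have hJP : 0 ≤ J g τ := J_nonneg hgH hτ0
  have main : ∀ d : ℝ, 0 < d → c / (c + d) * J g P ≤ J g τ := by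
    intro d hd
    have hu : SmoothFn (n := n) (fun x => H x + d) := sm_add hH (smoothFn_const d)
    have hpos : ∀ x, 0 < H x + d := fun x => add_pos_of_nonneg_of_pos (hH0 x) hd
    have hq : SmoothFn (n := n) (fun x => Real.log (H x + d)) := sm_log hu hpos
    have c1 : Continuous fun x => H x / (H x + d) * P x :=
      (cH.div (cH.add continuous_const) fun x => (hpos x).ne').mul cP
    have h1 : J g (fun x => H x / (H x + d) * P x - τ x) ≤
        J g (lapX g (fun x => Real.log (H x + d))) :=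
      J_mono hgH (c1.sub hτ) (cont_lap hgH hq) (key d hd)
    rw [J_lap hg hq, J_sub hgH c1 hτ] at h1
    have h2 : J g (fun x => c / (c + d) * P x) ≤ J g (fun x => H x / (H x + d) * P x) := by
      refine J_mono hgH (continuous_const.mul cP) c1 fun x => ?_
      by_cases hx : x ∈ tsupport ψ
      · refine mul_le_mul_of_nonneg_right ?_ (hP0 x)
        have h3 : c ≤ H x := (hcS x hx).trans (le_add_of_nonneg_right (h₁ x))
        rw [div_le_div_iff₀ (by linarith) (hpos x)]
        nlinarith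
      · have h3 : P x = 0 := by
          show ψ x * _ = 0
          rw [image_eq_zero_of_notMem_tsupport hx, zero_mul]
        rw [h3, mul_zero, mul_zero]
    rw [J_const_mul] at h2
    linarith
  -- `d → 0`
  have hlim : Tendsto (fun d : ℝ => c / (c + d) * J g P) (𝓝[>] 0) (𝓝 (c / (c + 0) * J g P)) := by
    refine tendsto_nhdsWithin_of_tendsto_nhds ?_
    have h1 : ContinuousAt (fun d : ℝ => c / (c + d) * J g P) 0 := by
      refine (ContinuousAt.div continuousAt_const (continuousAt_const.add continuousAt_id) ?_).mul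
        continuousAt_const
      simp [hc.ne']
    exact h1
  rw [add_zero, div_self hc.ne', one_mul] at hlim
  refine le_of_tendsto hlim ?_
  filter_upwards [self_mem_nhdsWithin] with d hd using main d hd

end Vale.Agent.P281.H575.LC
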